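import Vale.Agent.Lib.P047F.Final

/-!
# P047: the Gopalan-Servedio conjecture fails, formulated with multilinear polynomials and `M(d)`
-/

open Finset

namespace Vale.Agent.Results.P047.MultilinearForm

/-- `a` lists the coefficients of the multilinear polynomial `∑_S a_S ∏_{i ∈ S} x_i` in `n` real
variables; its degree is at most `d` and its values on `{-1,1}^n` are `1` or `-1`. -/
def BooleanPoly (n d : ℕ) (a : Finset (Fin n) → ℝ) : Prop :=
  (∀ S : Finset (Fin n), d < S.card → a S = 0) ∧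
  ∀ x : Fin n → ℝ, (∀ i, x i = 1 ∨ x i = -1) →
    (∑ S : Finset (Fin n), a S * ∏ i ∈ S, x i) = 1 ∨
      (∑ S : Finset (Fin n), a S * ∏ i ∈ S, x i) = -1

/-- `M(d)`: the supremum, in the extended real numbers, of the sums of the coefficients of
`x_1, …, x_n` over all `n ≥ 1` and all Boolean polynomials of degree at most `d`. -/
noncomputable def M (d : ℕ) : EReal :=
  ⨆ (n : ℕ) (a : Finset (Fin n) → ℝ) (_ : 1 ≤ n ∧ BooleanPoly n d a),
    ((∑ i : Fin n, a {i} : ℝ) : EReal)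

/-- Fourier inversion -/
theorem inversion {n : ℕ} (f : (Fin n → ℤˣ) → ℝ) (u : Fin n → ℤˣ) :
    ∑ S : Finset (Fin n), P047F.fourier f S * ∏ i ∈ S, ((u i : ℤ) : ℝ) = f u := by
  classical
  have h1 : ∀ y : Fin n → ℤˣ, ∑ S : Finset (Fin n),
      (∏ i ∈ S, ((y i : ℤ) : ℝ)) * ∏ i ∈ S, ((u i : ℤ) : ℝ) = if y = u then 2 ^ n else 0 := by
    intro y
    have h2 : ∑ S : Finset (Fin n), (∏ i ∈ S, ((y i : ℤ) : ℝ)) * ∏ i ∈ S, ((u i : ℤ) : ℝ) =
        ∏ i : Fin n, (1 + ((y i : ℤ) : ℝ) * ((u i : ℤ) : ℝ)) := by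
      rw [Finset.prod_one_add, Finset.powerset_univ]
      exact Finset.sum_congr rfl fun S _ => Finset.prod_mul_distrib.symm
    rw [h2]
    split_ifs with h
    · subst h
      have h3 : ∀ i ∈ (Finset.univ : Finset (Fin n)),
          (1 + ((y i : ℤ) : ℝ) * ((y i : ℤ) : ℝ)) = 2 := by
        intro i _
        rcases Int.units_eq_one_or (y i) with h | h <;> rw [h] <;> norm_num
      rw [Finset.prod_congr rfl h3, Finset.prod_const, Finset.card_univ, Fintype.card_fin]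
    · obtain ⟨i, hi⟩ := Function.ne_iff.1 h
      refine Finset.prod_eq_zero (Finset.mem_univ i) ?_
      rcases Int.units_eq_one_or (y i) with h1 | h1 <;>
        rcases Int.units_eq_one_or (u i) with h2 | h2
      · exact absurd (h1.trans h2.symm) hi
      · rw [h1, h2]
        norm_num
      · rw [h1, h2]
        norm_num
      · exact absurd (h1.trans h2.symm) hi
  have h3 : ∑ S : Finset (Fin n), P047F.fourier f S * ∏ i ∈ S, ((u i : ℤ) : ℝ) =
      (∑ y : Fin n → ℤˣ, f y * ∑ S : Finset (Fin n),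
        (∏ i ∈ S, ((y i : ℤ) : ℝ)) * ∏ i ∈ S, ((u i : ℤ) : ℝ)) / 2 ^ n := by
    simp only [P047F.fourier, Finset.mul_sum]
    rw [Finset.sum_comm, Finset.sum_div]
    refine Finset.sum_congr rfl fun S _ => ?_
    rw [div_mul_eq_mul_div, Finset.sum_mul]
    congr 1
    exact Finset.sum_congr rfl fun y _ => by ring
  rw [h3]
  have h4 : ∑ y : Fin n → ℤˣ, f y * ∑ S : Finset (Fin n),
      (∏ i ∈ S, ((y i : ℤ) : ℝ)) * ∏ i ∈ S, ((u i : ℤ) : ℝ) = f u * 2 ^ n := by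
    rw [Finset.sum_congr rfl fun y _ => by rw [h1 y], Finset.sum_eq_single u]
    · rw [if_pos rfl]
    · intro y _ hy
      rw [if_neg hy, mul_zero]
    · intro h
      exact absurd (Finset.mem_univ u) h
  rw [h4, mul_div_assoc, div_self (by positivity), mul_one]

theorem booleanPoly_fourier {n d : ℕ} {f : (Fin n → ℤˣ) → ℝ} (hf : P047F.IsBoolean f)
    (hd : P047F.degree f ≤ d) : BooleanPoly n d (P047F.fourier f) := by
  classical
  constructor
  · intro S hS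
    by_contra hne
    have h1 : S.card ≤ P047F.degree f :=
      Finset.le_sup (f := Finset.card) (Finset.mem_filter.2 ⟨Finset.mem_univ S, hne⟩)
    omega
  · intro x hx
    obtain ⟨u, hu⟩ : ∃ u : Fin n → ℤˣ, ∀ i, ((u i : ℤ) : ℝ) = x i := by
      have h : ∀ i, ∃ v : ℤˣ, ((v : ℤ) : ℝ) = x i := by
        intro i
        rcases hx i with h | h
        · exact ⟨1, by rw [h]; norm_num⟩
        · exact ⟨-1, by rw [h]; norm_num⟩
      choose u hu using h
      exact ⟨u, hu⟩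
    have h2 : ∑ S : Finset (Fin n), P047F.fourier f S * ∏ i ∈ S, x i = f u := by
      rw [← inversion f u]
      refine Finset.sum_congr rfl fun S _ => ?_
      rw [Finset.prod_congr rfl fun i _ => hu i]
    rw [h2]
    exact hf u

theorem growth_poly : ∃ c : ℝ, 0 < c ∧ ∃ K : ℝ, 0 < K ∧ ∀ d : ℕ, 1 ≤ d →
    ∃ (n : ℕ) (a : Finset (Fin n) → ℝ), 1 ≤ n ∧ BooleanPoly n d a ∧
      K * (d : ℝ) ^ (1 / 2 + c) ≤ ∑ i : Fin n, a {i} := by
  obtain ⟨c, hc, K, hK, h⟩ := P047F.growth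
  refine ⟨c, hc, K, hK, fun d hd => ?_⟩
  obtain ⟨n, f, hf, hdeg, hsum⟩ := h d hd
  refine ⟨n, P047F.fourier f, ?_, booleanPoly_fourier hf hdeg, hsum⟩
  rcases Nat.eq_zero_or_pos n with rfl | hn
  · exfalso
    have hd' : (0 : ℝ) < d := by exact_mod_cast hd
    have h1 : 0 < K * (d : ℝ) ^ (1 / 2 + c) := by positivity
    have h2 : P047F.linearSum f = 0 := by
      unfold P047F.linearSum
      exact Finset.sum_empty
    linarith
  · exact hn

/-- no constant works -/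
theorem no_const {c : ℝ} (hc : 0 < c) {K : ℝ} (hK : 0 < K) (C : ℝ) :
    ∃ d : ℕ, 1 ≤ d ∧ C * Real.sqrt d < K * (d : ℝ) ^ (1 / 2 + c) := by
  have h1 := (tendsto_rpow_atTop hc).comp tendsto_natCast_atTop_atTop
  obtain ⟨d, hd1, hd2⟩ := ((h1.eventually_gt_atTop (C / K)).and
    (Filter.eventually_ge_atTop 1)).exists
  refine ⟨d, hd2, ?_⟩
  have hd' : (0 : ℝ) < d := by exact_mod_cast hd2
  have h2 : C < K * (d : ℝ) ^ c := by
    have h3 : C / K < (d : ℝ) ^ c := hd1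
    rw [div_lt_iff₀ hK] at h3
    linarith
  have h4 : 0 < Real.sqrt d := Real.sqrt_pos.2 hd'
  rw [Real.rpow_add hd', ← Real.sqrt_eq_rpow]
  calc C * Real.sqrt d < K * (d : ℝ) ^ c * Real.sqrt d := mul_lt_mul_of_pos_right h2 h4
    _ = K * (Real.sqrt d * (d : ℝ) ^ c) := by ring

theorem le_M {n d : ℕ} {a : Finset (Fin n) → ℝ} (hn : 1 ≤ n) (ha : BooleanPoly n d a) :
    ((∑ i : Fin n, a {i} : ℝ) : EReal) ≤ M d := by
  unfold M
  exact le_iSup_of_le n (le_iSup_of_le a (le_iSup_of_le ⟨hn, ha⟩ le_rfl))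

theorem result :
    (¬ ∀ (n d : ℕ) (a : Finset (Fin n) → ℝ), 1 ≤ n → BooleanPoly n d a →
      ∑ i : Fin n, a {i} ≤ Real.sqrt d) ∧
    (¬ ∃ C : ℝ, ∀ (n d : ℕ) (a : Finset (Fin n) → ℝ), 1 ≤ n → BooleanPoly n d a →
      ∑ i : Fin n, a {i} ≤ C * Real.sqrt d) ∧
    (¬ ∃ C : ℝ, ∀ d : ℕ, 1 ≤ d → M d ≤ ((C * Real.sqrt d : ℝ) : EReal)) ∧
    (∃ c : ℝ, 0 < c ∧ ∃ K : ℝ, 0 < K ∧ ∀ d : ℕ, 1 ≤ d →
      ((K * (d : ℝ) ^ (1 / 2 + c) : ℝ) : EReal) ≤ M d) := by
  obtain ⟨c, hc, K, hK, h⟩ := growth_poly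
  have key : ∀ C : ℝ, ∃ (n d : ℕ) (a : Finset (Fin n) → ℝ), 1 ≤ n ∧ 1 ≤ d ∧
      BooleanPoly n d a ∧ C * Real.sqrt d < ∑ i : Fin n, a {i} := by
    intro C
    obtain ⟨d, hd1, hd2⟩ := no_const hc hK C
    obtain ⟨n, a, hn, ha, hsum⟩ := h d hd1
    exact ⟨n, d, a, hn, hd1, ha, lt_of_lt_of_le hd2 hsum⟩
  refine ⟨fun hall => ?_, fun hall => ?_, fun hall => ?_, c, hc, K, hK, fun d hd => ?_⟩
  · obtain ⟨n, d, a, hn, -, ha, hlt⟩ := key 1
    have h1 := hall n d a hn ha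
    rw [one_mul] at hlt
    exact absurd h1 (not_le.2 hlt)
  · obtain ⟨C, hC⟩ := hall
    obtain ⟨n, d, a, hn, -, ha, hlt⟩ := key C
    exact absurd (hC n d a hn ha) (not_le.2 hlt)
  · obtain ⟨C, hC⟩ := hall
    obtain ⟨n, d, a, hn, hd, ha, hlt⟩ := key C
    have h1 := (le_M hn ha).trans (hC d hd)
    exact absurd (EReal.coe_le_coe_iff.1 h1) (not_le.2 hlt)
  · obtain ⟨n, a, hn, ha, hsum⟩ := h d hd
    exact (EReal.coe_le_coe_iff.2 hsum).trans (le_M hn ha)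

end Vale.Agent.Results.P047.MultilinearForm
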