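import Vale.Agent.Lib.P047F.GrowthProof

/-!
# P047: the Gopalan-Servedio square-root conjecture is false, also in its weak form `M(d) = O(√d)`
-/

open Asymptotics Filter Vale.Agent.P047Growth

/-- **Q1.** (1) The bound `∑_i f^({i}) ≤ √(deg f)` fails for some Boolean `f`.  (2) No absolute
constant `C` gives `∑_i f^({i}) ≤ C √(deg f)` for all Boolean `f`.  (3) `M(d)` is a real number, the
least upper bound of the sums.  (4) `M(d) = O(√d)` is false.  (5) For some `c > 0`,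
`d^(1/2+c) = O(M(d))`. -/
theorem Vale.Agent.Results.P047.OrderOfGrowth.result :
    (¬ ∀ (n : ℕ) (f : (Fin n → ℝ) → ℝ), 1 ≤ n → Boolean f →
      ∑ i, coeff f {i} ≤ √(deg f : ℝ)) ∧
    (¬ ∃ C : ℝ, ∀ (n : ℕ) (f : (Fin n → ℝ) → ℝ), 1 ≤ n → Boolean f →
      ∑ i, coeff f {i} ≤ C * √(deg f : ℝ)) ∧
    (∀ d : ℕ, IsLUB (linearSums d) (M d)) ∧
    (¬ M =O[atTop] fun d : ℕ => √(d : ℝ)) ∧
    (∃ c : ℝ, 0 < c ∧ (fun d : ℕ => (d : ℝ) ^ (1 / 2 + c)) =O[atTop] M) :=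
  main
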