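import Vale.Agent.Lib.P047F.Final

/-!
# P047: the Gopalan-Servedio square-root conjecture is false

Neither `Σ f^({i}) ≤ sqrt (deg f)` nor `Σ f^({i}) ≤ C sqrt (deg f)` holds for all Boolean `f`;
in fact `M(d) ≥ K d^(1/2+c)` for all `d ≥ 1`, with absolute constants `c, K > 0`.
-/

namespace Vale.Agent.Results.P047.SquareRootFails

open P047F

theorem result :
    (¬ ∀ (n : ℕ) (f : (Fin n → ℤˣ) → ℝ), IsBoolean f →
      linearSum f ≤ Real.sqrt (degree f)) ∧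
    (¬ ∃ C : ℝ, ∀ (n : ℕ) (f : (Fin n → ℤˣ) → ℝ), IsBoolean f →
      linearSum f ≤ C * Real.sqrt (degree f)) ∧
    (∃ c : ℝ, 0 < c ∧ ∃ K : ℝ, 0 < K ∧ ∀ d : ℕ, 1 ≤ d →
      ∃ (n : ℕ) (f : (Fin n → ℤˣ) → ℝ), IsBoolean f ∧ degree f ≤ d ∧
        K * (d : ℝ) ^ (1 / 2 + c) ≤ linearSum f) :=
  ⟨no_one_of_growth growth, no_const_of_growth growth, growth⟩

end Vale.Agent.Results.P047.SquareRootFails
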